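import Mathlib

/-!
# Lipschitz-free spaces and the bounded approximation property (P090)

Basic definitions, following the conventions of the problem file:
`Lip0 M o` (Lipschitz functions vanishing at the base point, normed by the Lipschitz constant),
the evaluation functionals `delta`, the Lipschitz-free space `freeSpace M o`
(closed linear span of the evaluations in the dual of `Lip0 M o`) and the
`lam`-bounded approximation property `HasBAP lam X`.
-/

namespace Vale.Agent.P090

open Set Metric

/-- The real vector space of Lipschitz functions `f : M → ℝ` with `f o = 0`. -/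
def lip0Submodule (M : Type*) [MetricSpace M] (o : M) : Submodule ℝ (M → ℝ) where
  carrier := {f | f o = 0 ∧ ∃ K : NNReal, LipschitzWith K f}
  add_mem' := by
    rintro f g ⟨hf0, Kf, hf⟩ ⟨hg0, Kg, hg⟩
    exact ⟨by simp [hf0, hg0], Kf + Kg, hf.add hg⟩
  zero_mem' := ⟨rfl, 0, LipschitzWith.const 0⟩
  smul_mem' := by
    rintro c f ⟨hf0, Kf, hf⟩
    refine ⟨by simp [hf0], ‖c‖₊ * Kf, ?_⟩
    exact (lipschitzWith_smul c).comp hf

/-- `Lip_0(M)`: Lipschitz functions on `M` vanishing at the base point `o`. -/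
def Lip0 (M : Type*) [MetricSpace M] (o : M) : Type _ := lip0Submodule M o

variable {M : Type*} [MetricSpace M] {o : M}

noncomputable instance : AddCommGroup (Lip0 M o) :=
  inferInstanceAs (AddCommGroup (lip0Submodule M o))

noncomputable instance : Module ℝ (Lip0 M o) :=
  inferInstanceAs (Module ℝ (lip0Submodule M o))

instance : CoeFun (Lip0 M o) (fun _ => M → ℝ) := ⟨fun f => f.1⟩

/-- The (least) Lipschitz constant of a real function on a metric space. -/
noncomputable def lipConst (f : M → ℝ) : ℝ :=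
  sInf {K : ℝ | 0 ≤ K ∧ ∀ x y, |f x - f y| ≤ K * dist x y}

namespace Lip0

@[ext] theorem ext {f g : Lip0 M o} (h : ∀ x, f x = g x) : f = g :=
  Subtype.ext (funext h)

@[simp] theorem add_apply (f g : Lip0 M o) (x : M) : (f + g) x = f x + g x := rfl
@[simp] theorem zero_apply (x : M) : (0 : Lip0 M o) x = 0 := rfl
@[simp] theorem neg_apply (f : Lip0 M o) (x : M) : (-f) x = -(f x) := rfl
@[simp] theorem sub_apply (f g : Lip0 M o) (x : M) : (f - g) x = f x - g x := rfl
@[simp] theorem smul_apply (c : ℝ) (f : Lip0 M o) (x : M) : (c • f) x = c * f x := rfl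
@[simp] theorem map_base (f : Lip0 M o) : f o = 0 := f.2.1

/-- Build an element of `Lip0` from a real Lipschitz bound. -/
def mk' (f : M → ℝ) (h0 : f o = 0) (K : ℝ) (hK : ∀ x y, |f x - f y| ≤ K * dist x y) :
    Lip0 M o :=
  ⟨f, h0, K.toNNReal, LipschitzWith.of_dist_le_mul fun x y => by
    rw [Real.dist_eq]
    refine (hK x y).trans ?_
    exact mul_le_mul_of_nonneg_right (Real.le_coe_toNNReal K) dist_nonneg⟩

@[simp] theorem mk'_apply (f : M → ℝ) (h0 : f o = 0) (K : ℝ)
    (hK : ∀ x y, |f x - f y| ≤ K * dist x y) (x : M) : mk' f h0 K hK x = f x := rfl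

theorem bounds_nonempty (f : Lip0 M o) :
    {K : ℝ | 0 ≤ K ∧ ∀ x y, |f x - f y| ≤ K * dist x y}.Nonempty := by
  obtain ⟨-, K, hK⟩ := f.2
  refine ⟨K, K.2, fun x y => ?_⟩
  have := hK.dist_le_mul x y
  rwa [Real.dist_eq] at this

theorem bounds_bddBelow (f : M → ℝ) :
    BddBelow {K : ℝ | 0 ≤ K ∧ ∀ x y, |f x - f y| ≤ K * dist x y} :=
  ⟨0, fun _ h => h.1⟩

theorem lipConst_nonneg (f : Lip0 M o) : 0 ≤ lipConst (f : M → ℝ) :=
  le_csInf f.bounds_nonempty fun _ h => h.1

theorem lipConst_le (f : Lip0 M o) {K : ℝ} (hK0 : 0 ≤ K)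
    (hK : ∀ x y, |f x - f y| ≤ K * dist x y) : lipConst (f : M → ℝ) ≤ K :=
  csInf_le (bounds_bddBelow _) ⟨hK0, hK⟩

theorem abs_sub_le_lipConst (f : Lip0 M o) (x y : M) :
    |f x - f y| ≤ lipConst (f : M → ℝ) * dist x y := by
  rcases eq_or_ne x y with rfl | hxy
  · simp
  have hd : 0 < dist x y := dist_pos.2 hxy
  rw [← div_le_iff₀ hd]
  refine le_csInf f.bounds_nonempty fun K hK => ?_
  rw [div_le_iff₀ hd]
  exact hK.2 x y

/-- The Lipschitz constant as a group norm on `Lip0 M o`. -/
noncomputable def groupNorm : AddGroupNorm (Lip0 M o) where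
  toFun f := lipConst (f : M → ℝ)
  map_zero' := by
    refine le_antisymm ?_ (lipConst_nonneg 0)
    exact lipConst_le 0 le_rfl fun x y => by simp
  add_le' f g := by
    refine lipConst_le (f + g) (add_nonneg f.lipConst_nonneg g.lipConst_nonneg) fun x y => ?_
    have h1 := f.abs_sub_le_lipConst x y
    have h2 := g.abs_sub_le_lipConst x y
    calc |(f + g) x - (f + g) y| = |(f x - f y) + (g x - g y)| := by
          simp only [add_apply]; ring_nf
      _ ≤ |f x - f y| + |g x - g y| := abs_add_le _ _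
      _ ≤ _ := by rw [add_mul]; exact add_le_add h1 h2
  neg' f := by
    have key : ∀ g : Lip0 M o, lipConst ((-g : Lip0 M o) : M → ℝ) ≤ lipConst (g : M → ℝ) := by
      intro g
      refine lipConst_le (-g) g.lipConst_nonneg fun x y => ?_
      have h1 := g.abs_sub_le_lipConst x y
      calc |(-g) x - (-g) y| = |g x - g y| := by
            simp only [neg_apply]; rw [← abs_neg]; ring_nf
        _ ≤ _ := h1
    refine le_antisymm (key f) ?_
    have := key (-f)
    rwa [neg_neg] at this
  eq_zero_of_map_eq_zero' f hf := by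
    ext x
    have h := f.abs_sub_le_lipConst x o
    rw [hf] at h
    simpa using h

noncomputable instance : NormedAddCommGroup (Lip0 M o) :=
  groupNorm.toNormedAddCommGroup

theorem norm_def (f : Lip0 M o) : ‖f‖ = lipConst (f : M → ℝ) := rfl

theorem abs_sub_le (f : Lip0 M o) (x y : M) : |f x - f y| ≤ ‖f‖ * dist x y :=
  f.abs_sub_le_lipConst x y

theorem norm_le (f : Lip0 M o) {K : ℝ} (hK0 : 0 ≤ K)
    (hK : ∀ x y, |f x - f y| ≤ K * dist x y) : ‖f‖ ≤ K :=
  f.lipConst_le hK0 hK

theorem abs_apply_le (f : Lip0 M o) (x : M) : |f x| ≤ ‖f‖ * dist x o := by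
  simpa using f.abs_sub_le x o

noncomputable instance : NormedSpace ℝ (Lip0 M o) where
  norm_smul_le c f := by
    refine norm_le (c • f) (mul_nonneg (norm_nonneg _) (norm_nonneg _)) fun x y => ?_
    have h1 := f.abs_sub_le x y
    calc |(c • f) x - (c • f) y| = |c| * |f x - f y| := by
          simp only [smul_apply]; rw [← abs_mul]; ring_nf
      _ ≤ |c| * (‖f‖ * dist x y) := mul_le_mul_of_nonneg_left h1 (abs_nonneg _)
      _ = ‖c‖ * ‖f‖ * dist x y := by rw [Real.norm_eq_abs]; ring

end Lip0

/-- The evaluation functional `delta x : f ↦ f x` on `Lip0 M o`. -/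
noncomputable def delta (x : M) : StrongDual ℝ (Lip0 M o) :=
  LinearMap.mkContinuous
    { toFun := fun f => f x
      map_add' := fun _ _ => rfl
      map_smul' := fun _ _ => rfl } (dist x o)
    (fun f => by
      have h := f.abs_apply_le x
      rw [mul_comm] at h
      exact h)

@[simp] theorem delta_apply (x : M) (f : Lip0 M o) : delta x f = f x := rfl

/-- The Lipschitz-free space `F(M)`: the closed linear span of the evaluation functionals
in the dual of `Lip0 M o`. -/
noncomputable def freeSpace (M : Type*) [MetricSpace M] (o : M) :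
    Submodule ℝ (StrongDual ℝ (Lip0 M o)) :=
  (Submodule.span ℝ (Set.range (delta : M → StrongDual ℝ (Lip0 M o)))).topologicalClosure

/-- The `lam`-bounded approximation property of a real normed space `X`: for every compact set
`C` and every `ε > 0` there is a bounded finite-rank operator `T` on `X` with `‖T‖ ≤ lam` and
`sup_{u ∈ C} ‖T u - u‖ < ε`. -/
def HasBAP (lam : ℝ) (X : Type*) [NormedAddCommGroup X] [NormedSpace ℝ X] : Prop :=
  ∀ C : Set X, IsCompact C → ∀ ε : ℝ, 0 < ε → ∃ T : X →L[ℝ] X,
    FiniteDimensional ℝ (LinearMap.range (T : X →ₗ[ℝ] X)) ∧ ‖T‖ ≤ lam ∧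
      ∃ η : ℝ, η < ε ∧ ∀ u ∈ C, ‖T u - u‖ ≤ η

end Vale.Agent.P090
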