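import Vale.Agent.P090.Basic

/-!
# A criterion for the bounded approximation property of `freeSpace M o`

If for every finite `E ⊆ M` there is a bounded operator `S` on `Lip0 M o` of norm at most `lam`
with `S f = f` on `E` and such that every `delta x ∘ S` lies in the span of finitely many
evaluations, then `freeSpace M o` has the `lam`-BAP.
-/

namespace Vale.Agent.P090

open Set Metric

section Abstract

variable {D : Type*} [NormedAddCommGroup D] [NormedSpace ℝ D]

/-- Restriction of an operator `P` on `D` to a subspace `V` which it maps into `W ≤ V`. -/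
noncomputable def restrictOp (V W : Submodule ℝ D) (hWV : W ≤ V) (P : D →L[ℝ] D)
    (hP : ∀ φ ∈ V, P φ ∈ W) : V →L[ℝ] V :=
  (P.comp V.subtypeL).codRestrict V (fun φ => hWV (hP φ φ.2))

theorem norm_restrictOp_le (V W : Submodule ℝ D) (hWV : W ≤ V) (P : D →L[ℝ] D)
    (hP : ∀ φ ∈ V, P φ ∈ W) : ‖restrictOp V W hWV P hP‖ ≤ ‖P‖ := by
  refine ContinuousLinearMap.opNorm_le_bound _ (norm_nonneg _) fun φ => ?_
  exact P.le_opNorm φ

theorem finiteDimensional_range_restrictOp (V W : Submodule ℝ D) [FiniteDimensional ℝ W]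
    (hWV : W ≤ V) (P : D →L[ℝ] D) (hP : ∀ φ ∈ V, P φ ∈ W) :
    FiniteDimensional ℝ (LinearMap.range (restrictOp V W hWV P hP : V →ₗ[ℝ] V)) := by
  let R := LinearMap.range (restrictOp V W hWV P hP : V →ₗ[ℝ] V)
  have hmem : ∀ u : R, (V.subtype ∘ₗ R.subtype) u ∈ W := by
    rintro ⟨_, φ, rfl⟩
    exact hP φ φ.2
  let g : R →ₗ[ℝ] W := LinearMap.codRestrict W (V.subtype ∘ₗ R.subtype) hmem
  have hg : Function.Injective g := by
    intro u v huv
    have h1 : ((g u : W) : D) = ((g v : W) : D) := by rw [huv]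
    exact Subtype.ext (Subtype.ext h1)
  exact FiniteDimensional.of_injective g hg

/-- Abstract criterion: `V` is the closed span of the family `d`; for every finite set `E` of
indices there is an operator `P` on the ambient space, of norm at most `lam`, fixing `d x` for
`x ∈ E` and mapping every `d x` into a finite-dimensional subspace `W ≤ V`. -/
theorem hasBAP_closedSpan {ι : Type*} (d : ι → D) {lam : ℝ} (hlam : 0 ≤ lam)
    (h : ∀ E : Finset ι, ∃ (P : D →L[ℝ] D) (W : Submodule ℝ D), FiniteDimensional ℝ W ∧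
      W ≤ (Submodule.span ℝ (Set.range d)).topologicalClosure ∧ ‖P‖ ≤ lam ∧
      (∀ x ∈ E, P (d x) = d x) ∧ ∀ x, P (d x) ∈ W) :
    HasBAP lam (Submodule.span ℝ (Set.range d)).topologicalClosure := by
  set V := (Submodule.span ℝ (Set.range d)).topologicalClosure with hV
  intro C hC ε hε
  set η : ℝ := ε / (4 * (lam + 1)) with hη
  have hlam1 : 0 < lam + 1 := by linarith
  have hηpos : 0 < η := by positivity
  obtain ⟨t, htC, htfin, hcover⟩ := hC.finite_cover_balls hηpos
  have happrox : ∀ u : V, ∃ c : ι →₀ ℝ, ‖(u : D) - c.sum (fun i a => a • d i)‖ < η := by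
    intro u
    have hu : (u : D) ∈ closure ((Submodule.span ℝ (Set.range d) : Submodule ℝ D) : Set D) := u.2
    obtain ⟨v, hv, huv⟩ := Metric.mem_closure_iff.1 hu η hηpos
    obtain ⟨c, rfl⟩ := Finsupp.mem_span_range_iff_exists_finsupp.1 hv
    exact ⟨c, by rwa [dist_eq_norm] at huv⟩
  choose c hc using happrox
  classical
  set E : Finset ι := htfin.toFinset.biUnion (fun u => (c u).support) with hE
  obtain ⟨P, W, hWfin, hWV, hPn, hfix, hPW⟩ := h E
  have hPV : ∀ φ ∈ V, P φ ∈ W := by
    have hclosed : IsClosed (W : Set D) := W.closed_of_finiteDimensional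
    have hle : V ≤ W.comap (P : D →ₗ[ℝ] D) := by
      refine Submodule.topologicalClosure_minimal _ ?_ ?_
      · rw [Submodule.span_le]
        rintro _ ⟨x, rfl⟩
        exact hPW x
      · exact hclosed.preimage P.continuous
    exact fun φ hφ => hle hφ
  refine ⟨restrictOp V W hWV P hPV, finiteDimensional_range_restrictOp V W hWV P hPV,
    (norm_restrictOp_le V W hWV P hPV).trans hPn, ε / 2, by linarith, ?_⟩
  intro w hw
  obtain ⟨u, hu, hwu⟩ : ∃ u ∈ t, w ∈ ball u η := by
    have := hcover hw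
    simpa using this
  set v : D := (c u).sum (fun i a => a • d i) with hv
  have hfixv : P v = v := by
    rw [hv, Finsupp.sum, map_sum]
    refine Finset.sum_congr rfl fun i hi => ?_
    rw [map_smul]
    congr 1
    have hiE : i ∈ E := by
      rw [hE, Finset.mem_biUnion]
      exact ⟨u, htfin.mem_toFinset.2 hu, hi⟩
    exact hfix i hiE
  have hwv : ‖(w : D) - v‖ < 2 * η := by
    have h1 : ‖(w : D) - u‖ < η := by
      have h0 := mem_ball.1 hwu
      rw [Subtype.dist_eq, dist_eq_norm] at h0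
      exact h0
    have h2 := hc u
    calc ‖(w : D) - v‖ = ‖((w : D) - u) + ((u : D) - v)‖ := by congr 1; abel
      _ ≤ ‖(w : D) - u‖ + ‖(u : D) - v‖ := norm_add_le _ _
      _ < 2 * η := by linarith
  have hmain : ‖P (w : D) - w‖ ≤ (lam + 1) * (2 * η) := by
    have e1 : P (w : D) - w = P ((w : D) - v) - ((w : D) - v) := by
      rw [map_sub, hfixv]; abel
    rw [e1]
    calc ‖P ((w : D) - v) - ((w : D) - v)‖
        ≤ ‖P ((w : D) - v)‖ + ‖(w : D) - v‖ := norm_sub_le _ _
      _ ≤ ‖P‖ * ‖(w : D) - v‖ + ‖(w : D) - v‖ := by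
          gcongr
          exact P.le_opNorm _
      _ ≤ lam * ‖(w : D) - v‖ + ‖(w : D) - v‖ := by gcongr
      _ = (lam + 1) * ‖(w : D) - v‖ := by ring
      _ ≤ (lam + 1) * (2 * η) := by gcongr
  have hfin : (lam + 1) * (2 * η) = ε / 2 := by
    rw [hη]; field_simp; ring
  calc ‖restrictOp V W hWV P hPV w - w‖ = ‖P (w : D) - w‖ := rfl
    _ ≤ ε / 2 := by rw [← hfin]; exact hmain

end Abstract

variable {M : Type*} [MetricSpace M] {o : M}

/-- The adjoint `φ ↦ φ ∘ S` of an operator `S` on `Lip0 M o`. -/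
noncomputable def dualMap (S : Lip0 M o →L[ℝ] Lip0 M o) :
    StrongDual ℝ (Lip0 M o) →L[ℝ] StrongDual ℝ (Lip0 M o) :=
  (ContinuousLinearMap.compL ℝ (Lip0 M o) (Lip0 M o) ℝ).flip S

theorem dualMap_apply (S : Lip0 M o →L[ℝ] Lip0 M o) (φ : StrongDual ℝ (Lip0 M o)) :
    dualMap S φ = φ.comp S := rfl

theorem norm_dualMap_le (S : Lip0 M o →L[ℝ] Lip0 M o) : ‖dualMap S‖ ≤ ‖S‖ := by
  refine ContinuousLinearMap.opNorm_le_bound _ (norm_nonneg _) fun φ => ?_
  rw [dualMap_apply, mul_comm]
  exact ContinuousLinearMap.opNorm_comp_le φ S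

theorem span_image_le_freeSpace (F : Set M) :
    Submodule.span ℝ ((delta : M → StrongDual ℝ (Lip0 M o)) '' F) ≤ freeSpace M o :=
  (Submodule.span_mono (image_subset_range _ _)).trans (Submodule.le_topologicalClosure _)

theorem hasBAP_of_operators {lam : ℝ} (hlam : 0 ≤ lam)
    (h : ∀ E : Finset M, ∃ (S : Lip0 M o →L[ℝ] Lip0 M o) (F : Finset M), ‖S‖ ≤ lam ∧
      (∀ x ∈ E, ∀ f : Lip0 M o, S f x = f x) ∧
      ∀ x, (delta x).comp S ∈
        Submodule.span ℝ ((delta : M → StrongDual ℝ (Lip0 M o)) '' (F : Set M))) :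
    HasBAP lam (freeSpace M o) := by
  refine hasBAP_closedSpan (delta : M → StrongDual ℝ (Lip0 M o)) hlam fun E => ?_
  obtain ⟨S, F, hS, hfix, hF⟩ := h E
  refine ⟨dualMap S, Submodule.span ℝ ((delta : M → StrongDual ℝ (Lip0 M o)) '' (F : Set M)),
    FiniteDimensional.span_of_finite ℝ (F.finite_toSet.image _), span_image_le_freeSpace _,
    (norm_dualMap_le S).trans hS, ?_, hF⟩
  intro x hx
  ext f
  exact hfix x hx f

end Vale.Agent.P090
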