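import Vale.Agent.P090.Criterion

/-!
# A square-root bound for the BAP constant of bounded uniformly discrete spaces
-/

namespace Vale.Agent.P090

open Set Metric

variable {M : Type*} [MetricSpace M] {o : M}

section Cutoff

variable (r : M → M) (s θ R : ℝ)

/-- the cut-off weight `max 0 (1 - dist x (r x) / s)` -/
noncomputable def cutWeight (x : M) : ℝ := max 0 (1 - dist x (r x) / s)

theorem cutWeight_nonneg (x : M) : 0 ≤ cutWeight r s x := le_max_left _ _

theorem cutWeight_le_one (hs : 0 < s) (x : M) : cutWeight r s x ≤ 1 := by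
  unfold cutWeight
  refine max_le zero_le_one ?_
  have : 0 ≤ dist x (r x) / s := div_nonneg dist_nonneg hs.le
  linarith

theorem cutWeight_mul_le (hs : 0 < s) (x : M) : cutWeight r s x * dist x (r x) ≤ s / 4 := by
  unfold cutWeight
  rcases le_total (1 - dist x (r x) / s) 0 with h | h
  · rw [max_eq_left h]; simp; positivity
  · rw [max_eq_right h]
    set u := dist x (r x) / s with hu
    have hd : dist x (r x) = u * s := by rw [hu]; field_simp
    rw [hd]
    nlinarith [sq_nonneg (u - 1 / 2)]

theorem cutWeight_sub_le (hs : 0 < s)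
    (hρ : ∀ x y, dist x (r x) ≤ dist x y + dist y (r y)) (x y : M) :
    |cutWeight r s x - cutWeight r s y| ≤ dist x y / s := by
  unfold cutWeight
  rw [max_comm 0, max_comm 0]
  refine (abs_max_sub_max_le_abs (1 - dist x (r x) / s) (1 - dist y (r y) / s) 0).trans ?_
  have h1 := hρ x y
  have h2 := hρ y x
  rw [dist_comm y x] at h2
  have : (1 - dist x (r x) / s) - (1 - dist y (r y) / s) = (dist y (r y) - dist x (r x)) / s := by
    ring
  rw [this, abs_div, abs_of_pos hs]
  gcongr
  rw [abs_le]
  constructor <;> linarith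

/-- The key Lipschitz estimate (one ordering of the two points). -/
theorem cut_estimate_aux (hs : 0 < s) (hθ : 0 < θ)
    (hsep : ∀ x y : M, x ≠ y → θ ≤ dist x y) (hR : ∀ x : M, dist x o ≤ R)
    (hρ : ∀ x y, dist x (r x) ≤ dist x y + dist y (r y))
    (f : Lip0 M o) (x y : M) (hxy : dist x (r x) ≤ dist y (r y)) :
    |cutWeight r s x * f (r x) - cutWeight r s y * f (r y)| ≤
      (1 + R / s + s / (2 * θ)) * ‖f‖ * dist x y := by
  rcases eq_or_ne x y with rfl | hne
  · simp
  have hd : θ ≤ dist x y := hsep x y hne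
  have hdpos : 0 < dist x y := lt_of_lt_of_le hθ hd
  have hf0 : 0 ≤ ‖f‖ := norm_nonneg f
  have e : cutWeight r s x * f (r x) - cutWeight r s y * f (r y) =
      (cutWeight r s x - cutWeight r s y) * f (r x) + cutWeight r s y * (f (r x) - f (r y)) := by
    ring
  have hR0 : 0 ≤ R := dist_nonneg.trans (hR o)
  have b1 : |(cutWeight r s x - cutWeight r s y) * f (r x)| ≤ dist x y / s * (‖f‖ * R) := by
    rw [abs_mul]
    have h1 := cutWeight_sub_le r s hs hρ x y
    have h2 : |f (r x)| ≤ ‖f‖ * R :=
      (f.abs_apply_le (r x)).trans (mul_le_mul_of_nonneg_left (hR _) hf0)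
    exact mul_le_mul h1 h2 (abs_nonneg _) (by positivity)
  have b2 : |cutWeight r s y * (f (r x) - f (r y))| ≤ ‖f‖ * (s / 2 + dist x y) := by
    rw [abs_mul, abs_of_nonneg (cutWeight_nonneg r s y)]
    have h1 : |f (r x) - f (r y)| ≤ ‖f‖ * dist (r x) (r y) := f.abs_sub_le _ _
    have h2 : dist (r x) (r y) ≤ 2 * dist y (r y) + dist x y := by
      have t1 : dist (r x) (r y) ≤ dist (r x) x + dist x y + dist y (r y) := dist_triangle4 _ _ _ _
      rw [dist_comm (r x) x] at t1
      linarith
    have h3 := cutWeight_mul_le r s hs y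
    have h4 := cutWeight_le_one r s hs y
    have h5 := cutWeight_nonneg r s y
    calc cutWeight r s y * |f (r x) - f (r y)|
        ≤ cutWeight r s y * (‖f‖ * (2 * dist y (r y) + dist x y)) := by
          gcongr
          exact h1.trans (mul_le_mul_of_nonneg_left h2 hf0)
      _ = ‖f‖ * (2 * (cutWeight r s y * dist y (r y)) + cutWeight r s y * dist x y) := by ring
      _ ≤ ‖f‖ * (2 * (s / 4) + 1 * dist x y) := by gcongr
      _ = ‖f‖ * (s / 2 + dist x y) := by ring
  have b3 : s / 2 ≤ s / (2 * θ) * dist x y := by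
    have : s / 2 = s / (2 * θ) * θ := by field_simp
    rw [this]
    gcongr
  rw [e]
  calc |(cutWeight r s x - cutWeight r s y) * f (r x) + cutWeight r s y * (f (r x) - f (r y))|
      ≤ dist x y / s * (‖f‖ * R) + ‖f‖ * (s / 2 + dist x y) := (abs_add_le _ _).trans (add_le_add b1 b2)
    _ ≤ dist x y / s * (‖f‖ * R) + ‖f‖ * (s / (2 * θ) * dist x y + dist x y) := by gcongr
    _ = (1 + R / s + s / (2 * θ)) * ‖f‖ * dist x y := by ring

theorem cut_estimate (hs : 0 < s) (hθ : 0 < θ)
    (hsep : ∀ x y : M, x ≠ y → θ ≤ dist x y) (hR : ∀ x : M, dist x o ≤ R)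
    (hρ : ∀ x y, dist x (r x) ≤ dist x y + dist y (r y))
    (f : Lip0 M o) (x y : M) :
    |cutWeight r s x * f (r x) - cutWeight r s y * f (r y)| ≤
      (1 + R / s + s / (2 * θ)) * ‖f‖ * dist x y := by
  rcases le_total (dist x (r x)) (dist y (r y)) with h | h
  · exact cut_estimate_aux r s θ R hs hθ hsep hR hρ f x y h
  · rw [abs_sub_comm, dist_comm]
    exact cut_estimate_aux r s θ R hs hθ hsep hR hρ f y x h

/-- The weighted composition operator `f ↦ (x ↦ cutWeight x * f (r x))` on `Lip0 M o`. -/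
noncomputable def cutOp (hs : 0 < s) (hθ : 0 < θ)
    (hsep : ∀ x y : M, x ≠ y → θ ≤ dist x y) (hR : ∀ x : M, dist x o ≤ R)
    (hρ : ∀ x y, dist x (r x) ≤ dist x y + dist y (r y)) (hro : r o = o) :
    Lip0 M o →L[ℝ] Lip0 M o :=
  LinearMap.mkContinuous
    { toFun := fun f => Lip0.mk' (fun x => cutWeight r s x * f (r x)) (by simp [hro])
        ((1 + R / s + s / (2 * θ)) * ‖f‖) (cut_estimate r s θ R hs hθ hsep hR hρ f)
      map_add' := fun f g => by
        ext x
        simp only [Lip0.mk'_apply, Lip0.add_apply]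
        ring
      map_smul' := fun c f => by
        ext x
        simp only [Lip0.mk'_apply, Lip0.smul_apply, RingHom.id_apply]
        ring }
    (1 + R / s + s / (2 * θ))
    (fun f => by
      have hR0 : 0 ≤ R := dist_nonneg.trans (hR o)
      refine Lip0.norm_le _ (by positivity) fun x y => ?_
      exact cut_estimate r s θ R hs hθ hsep hR hρ f x y)

theorem cutOp_apply (hs : 0 < s) (hθ : 0 < θ)
    (hsep : ∀ x y : M, x ≠ y → θ ≤ dist x y) (hR : ∀ x : M, dist x o ≤ R)
    (hρ : ∀ x y, dist x (r x) ≤ dist x y + dist y (r y)) (hro : r o = o)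
    (f : Lip0 M o) (x : M) :
    cutOp r s θ R hs hθ hsep hR hρ hro f x = cutWeight r s x * f (r x) := rfl

theorem norm_cutOp_le (hs : 0 < s) (hθ : 0 < θ)
    (hsep : ∀ x y : M, x ≠ y → θ ≤ dist x y) (hR : ∀ x : M, dist x o ≤ R)
    (hρ : ∀ x y, dist x (r x) ≤ dist x y + dist y (r y)) (hro : r o = o) :
    ‖cutOp r s θ R hs hθ hsep hR hρ hro‖ ≤ 1 + R / s + s / (2 * θ) := by
  have hR0 : 0 ≤ R := dist_nonneg.trans (hR o)
  exact LinearMap.mkContinuous_norm_le _ (by positivity) _

end Cutoff

/-- For every scale `s > 0`, a `θ`-separated space of radius `R` has the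
`(1 + R / s + s / (2 θ))`-BAP. -/
theorem hasBAP_of_scale {θ R s : ℝ} (hs : 0 < s) (hθ : 0 < θ)
    (hsep : ∀ x y : M, x ≠ y → θ ≤ dist x y) (hR : ∀ x : M, dist x o ≤ R) :
    HasBAP (1 + R / s + s / (2 * θ)) (freeSpace M o) := by
  have hR0 : 0 ≤ R := dist_nonneg.trans (hR o)
  refine hasBAP_of_operators (by positivity) fun E => ?_
  classical
  set E' : Finset M := insert o E with hE'
  have hne : E'.Nonempty := ⟨o, Finset.mem_insert_self _ _⟩
  have hex : ∀ x : M, ∃ e ∈ E', ∀ e' ∈ E', dist x e ≤ dist x e' := fun x =>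
    Finset.exists_min_image E' (fun e => dist x e) hne
  choose r hrE hrmin using hex
  have hfix : ∀ x ∈ E', r x = x := by
    intro x hx
    have := hrmin x x hx
    rw [dist_self] at this
    exact (dist_le_zero.1 this).symm
  have hρ : ∀ x y, dist x (r x) ≤ dist x y + dist y (r y) := fun x y =>
    (hrmin x (r y) (hrE y)).trans (dist_triangle _ _ _)
  have hro : r o = o := hfix o (Finset.mem_insert_self _ _)
  refine ⟨cutOp r s θ R hs hθ hsep hR hρ hro, E', norm_cutOp_le r s θ R hs hθ hsep hR hρ hro,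
    ?_, ?_⟩
  · intro x hx f
    have hx' : x ∈ E' := Finset.mem_insert_of_mem hx
    rw [cutOp_apply, hfix x hx']
    simp [cutWeight, hfix x hx']
  · intro x
    have : (delta x).comp (cutOp r s θ R hs hθ hsep hR hρ hro) =
        cutWeight r s x • (delta (r x) : StrongDual ℝ (Lip0 M o)) := by
      ext f
      rfl
    rw [this]
    exact Submodule.smul_mem _ _ (Submodule.subset_span ⟨r x, hrE x, rfl⟩)

/-- **Square-root bound.** If `M` is `θ`-separated and contained in the ball of radius `R`
around the base point, then `F(M)` has the `(1 + √(2R/θ))`-BAP. -/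
theorem hasBAP_sqrt {θ R : ℝ} (hθ : 0 < θ)
    (hsep : ∀ x y : M, x ≠ y → θ ≤ dist x y) (hR : ∀ x : M, dist x o ≤ R) :
    HasBAP (1 + Real.sqrt (2 * R / θ)) (freeSpace M o) := by
  have hR0 : 0 ≤ R := dist_nonneg.trans (hR o)
  rcases hR0.eq_or_lt with h0 | hpos
  · -- the one-point space
    subst h0
    have hall : ∀ x : M, x = o := fun x => dist_le_zero.1 (hR x)
    have h1 : (1 : ℝ) + Real.sqrt (2 * 0 / θ) = 1 := by simp
    rw [h1]
    refine hasBAP_of_operators zero_le_one fun E => ?_
    refine ⟨ContinuousLinearMap.id ℝ _, {o}, ContinuousLinearMap.norm_id_le, fun _ _ _ => rfl, ?_⟩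
    intro x
    rw [hall x]
    exact Submodule.subset_span ⟨o, by simp, rfl⟩
  · set s : ℝ := Real.sqrt (2 * R * θ) with hs
    have hspos : 0 < s := Real.sqrt_pos.2 (by positivity)
    have hsq : s * s = 2 * R * θ := Real.mul_self_sqrt (by positivity)
    have key : 1 + R / s + s / (2 * θ) = 1 + Real.sqrt (2 * R / θ) := by
      have h2 : Real.sqrt (2 * R / θ) = s / θ := by
        rw [Real.sqrt_eq_iff_mul_self_eq (by positivity) (by positivity)]
        field_simp
        nlinarith [hsq]
      rw [h2]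
      have h3 : R / s = s / (2 * θ) := by
        rw [div_eq_div_iff hspos.ne' (by positivity)]
        nlinarith [hsq]
      rw [h3]
      field_simp
      ring
    rw [← key]
    exact hasBAP_of_scale hspos hθ hsep hR

end Vale.Agent.P090
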