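import Vale.Agent.P090.K.Main
import Vale.Agent.P090.Criterion

/-!
# P090: the failure of the BAP, stated through the universal property of the free space

A pair `(X, δ)` consisting of a Banach space `X` and a map `δ : M → X` is a model of the
Lipschitz-free space of the pointed metric space `(M, o)` if `δ o = 0`, `δ` is an isometry, the linear
span of the range of `δ` is dense and every Lipschitz function `f : M → ℝ` with `f o = 0` extends to a
bounded linear functional on `X` whose norm is at most the Lipschitz constant.  We show that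
`freeSpace M o` is such a model and that the argument of `K/Extract.lean` works for every model.
-/

namespace Vale.Agent.P090

open Set Metric

section Model

variable {M : Type*} [MetricSpace M] {o : M}

/-- `delta x` as an element of the free space. -/
noncomputable def deltaF (o : M) (x : M) : freeSpace M o :=
  ⟨delta x, Submodule.le_topologicalClosure _ (Submodule.subset_span ⟨x, rfl⟩)⟩

theorem deltaF_base : deltaF o o = 0 := Subtype.ext delta_base

theorem norm_deltaF_sub (x y : M) : ‖deltaF o x - deltaF o y‖ = dist x y := by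
  refine le_antisymm (norm_delta_sub_le x y) ?_
  have hL : ∀ a b : M, |(dist a y - dist o y) - (dist b y - dist o y)| ≤ 1 * dist a b := by
    intro a b
    have h1 := abs_dist_sub_le a b y
    have e : (dist a y - dist o y) - (dist b y - dist o y) = dist a y - dist b y := by ring
    rw [e, one_mul]
    exact h1
  let g : Lip0 M o := Lip0.mk' (fun z => dist z y - dist o y) (by simp) 1 hL
  have hg : ‖g‖ ≤ 1 := Lip0.norm_le g zero_le_one hL
  have h1 := ContinuousLinearMap.le_opNorm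
    ((delta x : StrongDual ℝ (Lip0 M o)) - (delta y : StrongDual ℝ (Lip0 M o))) g
  have h2 : ((delta x : StrongDual ℝ (Lip0 M o)) - (delta y : StrongDual ℝ (Lip0 M o))) g
      = dist x y := by
    rw [sub_apply, delta_apply, delta_apply]
    simp [g]
  rw [h2, Real.norm_eq_abs, abs_of_nonneg dist_nonneg] at h1
  have h3 : ‖(delta x : StrongDual ℝ (Lip0 M o)) - delta y‖ * ‖g‖
      ≤ ‖(delta x : StrongDual ℝ (Lip0 M o)) - delta y‖ * 1 :=
    mul_le_mul_of_nonneg_left hg (norm_nonneg _)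
  rw [mul_one] at h3
  exact h1.trans h3

instance : CompleteSpace (freeSpace M o) :=
  (Submodule.isClosed_topologicalClosure _).completeSpace_coe

theorem coe_sum_deltaF (c : M →₀ ℝ) :
    ((c.sum (fun i a => a • deltaF o i) : freeSpace M o) : StrongDual ℝ (Lip0 M o))
      = c.sum (fun i a => a • (delta i : StrongDual ℝ (Lip0 M o))) := by
  simp only [Finsupp.sum, Submodule.coe_sum, Submodule.coe_smul]
  rfl

theorem dense_span_deltaF :
    Dense ((Submodule.span ℝ (Set.range (deltaF o)) : Submodule ℝ (freeSpace M o)) :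
      Set (freeSpace M o)) := by
  intro v
  rw [Metric.mem_closure_iff]
  intro ε hε
  have hv : (v : StrongDual ℝ (Lip0 M o)) ∈ closure ((Submodule.span ℝ
      (Set.range (delta : M → StrongDual ℝ (Lip0 M o))) :
        Submodule ℝ (StrongDual ℝ (Lip0 M o))) : Set (StrongDual ℝ (Lip0 M o))) := v.2
  obtain ⟨w, hw, hvw⟩ := Metric.mem_closure_iff.1 hv ε hε
  obtain ⟨c, rfl⟩ := Finsupp.mem_span_range_iff_exists_finsupp.1 hw
  refine ⟨c.sum (fun i a => a • deltaF o i),
    Finsupp.mem_span_range_iff_exists_finsupp.2 ⟨c, rfl⟩, ?_⟩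
  rw [Subtype.dist_eq, coe_sum_deltaF]
  exact hvw

/-- Restriction of a functional to a submodule. -/
theorem exists_restrict_functional {D : Type*} [NormedAddCommGroup D] [NormedSpace ℝ D]
    (V : Submodule ℝ D) (ψ : D →L[ℝ] ℝ) :
    ∃ φ : V →L[ℝ] ℝ, ‖φ‖ ≤ ‖ψ‖ ∧ ∀ v : V, φ v = ψ v := by
  refine ⟨ψ.comp V.subtypeL, ?_, fun v => rfl⟩
  refine ContinuousLinearMap.opNorm_le_bound _ (norm_nonneg _) fun v => ?_
  exact ψ.le_opNorm v

/-- Evaluation at a Lipschitz function, as a functional on the dual of `Lip0 M o`. -/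
theorem exists_eval_functional (f : M → ℝ) (K : NNReal) (hf : LipschitzWith K f)
    (h0 : f o = 0) :
    ∃ ψ : StrongDual ℝ (Lip0 M o) →L[ℝ] ℝ, ‖ψ‖ ≤ K ∧ ∀ x, ψ (delta x) = f x := by
  let g : Lip0 M o := ⟨f, h0, K, hf⟩
  have hg : ‖g‖ ≤ K := Lip0.norm_le g K.2 fun x y => by
    have := hf.dist_le_mul x y
    rwa [Real.dist_eq] at this
  refine ⟨ContinuousLinearMap.apply ℝ ℝ g, ?_, fun x => rfl⟩
  refine ContinuousLinearMap.opNorm_le_bound _ K.2 fun v => ?_
  have h1 : ‖v g‖ ≤ ‖v‖ * ‖g‖ := ContinuousLinearMap.le_opNorm _ _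
  have h2 : ‖v‖ * ‖g‖ ≤ ‖v‖ * K := mul_le_mul_of_nonneg_left hg (norm_nonneg _)
  calc ‖(ContinuousLinearMap.apply ℝ ℝ g) v‖ = ‖v g‖ := rfl
    _ ≤ ‖v‖ * K := h1.trans h2
    _ = K * ‖v‖ := mul_comm _ _

/-- `freeSpace M o` with the evaluations is a model of the Lipschitz-free space. -/
theorem exists_model (M : Type) [MetricSpace M] (o : M) :
    ∃ (X : Type) (_ : NormedAddCommGroup X) (_ : NormedSpace ℝ X) (_ : CompleteSpace X)
      (δ : M → X), δ o = 0 ∧ (∀ x y, ‖δ x - δ y‖ = dist x y) ∧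
        Dense ((Submodule.span ℝ (Set.range δ) : Submodule ℝ X) : Set X) ∧
        ∀ (f : M → ℝ) (K : NNReal), LipschitzWith K f → f o = 0 →
          ∃ φ : X →L[ℝ] ℝ, ‖φ‖ ≤ K ∧ ∀ x, φ (δ x) = f x := by
  refine ⟨freeSpace M o, inferInstance, inferInstance, inferInstance, deltaF o, deltaF_base,
    norm_deltaF_sub, dense_span_deltaF, fun f K hf h0 => ?_⟩
  obtain ⟨ψ, hψ, hψx⟩ := exists_eval_functional (o := o) f K hf h0
  obtain ⟨φ, hφ, hφv⟩ := exists_restrict_functional (freeSpace M o) ψ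
  exact ⟨φ, hφ.trans hψ, fun x => (hφv _).trans (hψx x)⟩

end Model

/-- The BAP passes from `X` to a submodule which is everything. -/
theorem hasBAP_of_forall_mem {X : Type*} [NormedAddCommGroup X] [NormedSpace ℝ X] {lam : ℝ}
    (V : Submodule ℝ X) (hV : ∀ x, x ∈ V) (h : HasBAP lam X) : HasBAP lam V := by
  intro C hC ε hε
  obtain ⟨T, hfin, hn, η, hη, hT⟩ :=
    h (Subtype.val '' C) (hC.image continuous_subtype_val) ε hε
  have : FiniteDimensional ℝ (LinearMap.range (T : X →ₗ[ℝ] X)) := hfin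
  refine ⟨restrictOp V (LinearMap.range (T : X →ₗ[ℝ] X)) (fun x _ => hV x) T
      (fun φ _ => LinearMap.mem_range_self _ φ), finiteDimensional_range_restrictOp _ _ _ _ _,
      (norm_restrictOp_le _ _ _ _ _).trans hn, η, hη, fun u hu => ?_⟩
  exact hT u ⟨u, hu, rfl⟩

/-- The extraction of approximation data (`approxData_of_hasBAP`) for an arbitrary model `(X, δ)` of
the Lipschitz-free space of `(M, o)`. -/
theorem approxData_of_model {M P X : Type*} [MetricSpace M] [MetricSpace P]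
    [NormedAddCommGroup X] [NormedSpace ℝ X] {o : M} {lam : ℝ} (δ : M → X)
    (hδo : δ o = 0) (hδ : ∀ x y, ‖δ x - δ y‖ ≤ dist x y)
    (hdense : Dense ((Submodule.span ℝ (Set.range δ) : Submodule ℝ X) : Set X))
    (hext : ∀ (f : M → ℝ) (K : NNReal), LipschitzWith K f → f o = 0 →
      ∃ φ : X →L[ℝ] ℝ, ‖φ‖ ≤ K ∧ ∀ x, φ (δ x) = f x)
    (h : HasBAP lam X) (ι : P → M) (r : M → P)
    (hι : ∀ a b, dist (ι a) (ι b) = dist a b) (hr : ∀ a b, dist (r a) (r b) ≤ dist a b)
    (hrι : ∀ a, r (ι a) = a) (R : ℝ) (hR : ∀ a b : P, dist a b ≤ R) (E : Finset P) {η : ℝ}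
    (hη : 0 < η) : ApproxData P lam η E := by
  classical
  rcases isEmpty_or_nonempty P with hP | ⟨⟨z₀⟩⟩
  · exact ⟨∅, fun _ _ => 0, fun z => (hP.false z).elim, fun z => (hP.false z).elim,
      fun z => (hP.false z).elim⟩
  have hlam : 0 ≤ lam := by
    obtain ⟨T, -, hT, -⟩ := h ∅ isCompact_empty 1 one_pos
    exact (norm_nonneg T).trans hT
  have h' : HasBAP lam (Submodule.span ℝ (Set.range δ)).topologicalClosure :=
    hasBAP_of_forall_mem _ (fun x => hdense x) h
  have hB : ∀ z : P, ‖δ (ι z)‖ ≤ R + dist (ι z₀) o := by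
    intro z
    have h1 := hδ (ι z) o
    rw [hδo, sub_zero] at h1
    have h2 : dist (ι z) o ≤ dist (ι z) (ι z₀) + dist (ι z₀) o := dist_triangle _ _ _
    have h3 : dist (ι z) (ι z₀) ≤ R := by rw [hι]; exact hR z z₀
    linarith
  obtain ⟨Φ₀, c, hsupp, hA, hBd⟩ := extract_abstract δ h' ι _ hB E hη
  set Φ₁ : Finset M := insert o Φ₀ with hΦ₁
  have hoΦ : o ∈ Φ₁ := Finset.mem_insert_self _ _
  have haz : ∀ (z : P) (ψ : X →L[ℝ] ℝ),
      ψ ((c z).sum (fun i a => a • δ i)) = ∑ w ∈ Φ₁, c z w * ψ (δ w) := by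
    intro z ψ
    rw [Finsupp.sum_of_support_subset (c z) (s := Φ₁)
      ((hsupp z).trans (Finset.subset_insert o Φ₀)) _ (fun i _ => by simp)]
    simp
  let μ₀ : P → M → ℝ := fun z w => c z w + (1 - ∑ v ∈ Φ₁, c z v) * (if w = o then 1 else 0)
  have hμ₀ : ∀ (z : P) (F : M → ℝ), ∑ w ∈ Φ₁, μ₀ z w * F w
      = ∑ w ∈ Φ₁, c z w * F w + (1 - ∑ v ∈ Φ₁, c z v) * F o := by
    intro z F
    have e : ∀ w ∈ Φ₁, μ₀ z w * F w
        = c z w * F w + (if w = o then (1 - ∑ v ∈ Φ₁, c z v) * F o else 0) := by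
      intro w _
      by_cases hw : w = o
      · subst hw
        simp only [μ₀, if_true]
        ring
      · simp only [μ₀, if_neg hw]
        ring
    rw [Finset.sum_congr rfl e, Finset.sum_add_distrib, Finset.sum_ite_eq' Φ₁ o, if_pos hoΦ]
  let μ : P → P → ℝ := fun z w' => ∑ w ∈ Φ₁ with r w = w', μ₀ z w
  have hμ : ∀ (z : P) (f : P → ℝ), ∑ w' ∈ Φ₁.image r, μ z w' * f w'
      = ∑ w ∈ Φ₁, μ₀ z w * f (r w) := by
    intro z f
    rw [← Finset.sum_fiberwise_of_maps_to (g := r) (t := Φ₁.image r)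
      (fun i hi => Finset.mem_image_of_mem r hi)]
    refine Finset.sum_congr rfl fun w' _ => ?_
    simp only [μ]
    rw [Finset.sum_mul]
    refine Finset.sum_congr rfl fun w hw => ?_
    rw [(Finset.mem_filter.mp hw).2]
  have hkey : ∀ (f : P → ℝ) (K : ℝ), 0 ≤ K → (∀ a b, |f a - f b| ≤ K * dist a b) →
      ∃ ψ : X →L[ℝ] ℝ, ‖ψ‖ ≤ K ∧ (∀ x, ψ (δ x) = f (r x) - f (r o)) ∧
        ∀ z, ∑ w' ∈ Φ₁.image r, μ z w' * f w'
          = ψ ((c z).sum (fun i a => a • δ i)) + f (r o) := by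
    intro f K hK hf
    have hLip : LipschitzWith K.toNNReal (fun x => f (r x) - f (r o)) := by
      refine LipschitzWith.of_dist_le_mul fun x y => ?_
      rw [Real.dist_eq, Real.coe_toNNReal K hK]
      have h1 := hf (r x) (r y)
      have h2 : K * dist (r x) (r y) ≤ K * dist x y := mul_le_mul_of_nonneg_left (hr x y) hK
      have e : (f (r x) - f (r o)) - (f (r y) - f (r o)) = f (r x) - f (r y) := by ring
      rw [e]
      exact h1.trans h2
    obtain ⟨ψ, hψ, hψx⟩ := hext _ _ hLip (by simp)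
    rw [Real.coe_toNNReal K hK] at hψ
    refine ⟨ψ, hψ, hψx, fun z => ?_⟩
    rw [hμ, haz, hμ₀]
    simp only [hψx]
    have e : ∑ w ∈ Φ₁, c z w * (f (r w) - f (r o))
        = ∑ w ∈ Φ₁, c z w * f (r w) - (∑ w ∈ Φ₁, c z w) * f (r o) := by
      rw [Finset.sum_mul, ← Finset.sum_sub_distrib]
      exact Finset.sum_congr rfl fun w _ => by ring
    rw [e]
    ring
  refine ⟨Φ₁.image r, μ, ?_, ?_, ?_⟩
  · intro z
    have h1 := hμ z (fun _ => 1)
    have h2 := hμ₀ z (fun _ => 1)
    simp only [mul_one] at h1 h2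
    rw [h1, h2]
    ring
  · intro z z' f K hK hf
    obtain ⟨ψ, hg, -, hI⟩ := hkey f K hK hf
    rw [hI z, hI z']
    have e : ψ ((c z).sum (fun i a => a • δ i)) + f (r o)
        - (ψ ((c z').sum (fun i a => a • δ i)) + f (r o))
        = ψ ((c z).sum (fun i a => a • δ i) - (c z').sum (fun i a => a • δ i)) := by
      rw [map_sub]
      ring
    rw [e]
    have h1 := ψ.le_opNorm ((c z).sum (fun i a => a • δ i) - (c z').sum (fun i a => a • δ i))
    rw [Real.norm_eq_abs] at h1
    have h2 := hA z z'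
    have h3 : ‖δ (ι z) - δ (ι z')‖ ≤ dist z z' := by
      rw [← hι]
      exact hδ _ _
    have h4 : lam * ‖δ (ι z) - δ (ι z')‖ + η ≤ lam * dist z z' + η := by
      have := mul_le_mul_of_nonneg_left h3 hlam
      linarith
    calc _ ≤ _ := h1
      _ ≤ K * (lam * dist z z' + η) :=
          mul_le_mul hg (h2.trans h4) (norm_nonneg _) hK
  · intro z e he f K hK hf
    obtain ⟨ψ, hg, hgx, hI⟩ := hkey f K hK hf
    rw [hI z]
    have e1 : f e = ψ (δ (ι e)) + f (r o) := by
      rw [hgx, hrι]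
      ring
    have e2 : ψ ((c z).sum (fun i a => a • δ i)) + f (r o) - f e
        = ψ ((c z).sum (fun i a => a • δ i) - δ (ι e)) := by
      rw [map_sub, e1]
      ring
    rw [e2]
    have h1 := ψ.le_opNorm ((c z).sum (fun i a => a • δ i) - δ (ι e))
    rw [Real.norm_eq_abs] at h1
    have h2 := hBd z e he
    have h3 : ‖δ (ι z) - δ (ι e)‖ ≤ dist z e := by
      rw [← hι]
      exact hδ _ _
    have h4 : lam * ‖δ (ι z) - δ (ι e)‖ + η ≤ lam * dist z e + η := by
      have := mul_le_mul_of_nonneg_left h3 hlam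
      linarith
    calc _ ≤ _ := h1
      _ ≤ K * (lam * dist z e + η) :=
          mul_le_mul hg (h2.trans h4) (norm_nonneg _) hK

/-- There is a nonempty `1`-separated metric space `M` such that, for every base point, models of the
Lipschitz-free space exist and every model fails the `lam`-BAP for every `lam`. -/
theorem exists_uniformly_discrete_no_model_hasBAP :
    ∃ (M : Type) (_ : MetricSpace M), Nonempty M ∧ (∀ x y : M, x ≠ y → 1 ≤ dist x y) ∧
      ∀ (o : M) (X : Type) [NormedAddCommGroup X] [NormedSpace ℝ X] (δ : M → X),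
        δ o = 0 → (∀ x y, ‖δ x - δ y‖ ≤ dist x y) →
        Dense ((Submodule.span ℝ (Set.range δ) : Submodule ℝ X) : Set X) →
        (∀ (f : M → ℝ) (K : NNReal), LipschitzWith K f → f o = 0 →
          ∃ φ : X →L[ℝ] ℝ, ‖φ‖ ≤ K ∧ ∀ x, φ (δ x) = f x) →
        ∀ lam : ℝ, ¬ HasBAP lam X := by
  have : ∀ n, Nonempty (kFrame n).Pt := fun n => ⟨((kFrame n).star, 1)⟩
  obtain ⟨M, hM, o0, hsep, hglue⟩ :=
    exists_glue (fun n => (kFrame n).Pt) (fun n x y hxy => (kFrame n).one_le_dist hxy)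
  refine ⟨M, hM, ⟨o0⟩, hsep, fun o X _ _ δ h0 hd hdense hext lam hbap => ?_⟩
  obtain ⟨n, hn⟩ := exists_nat_ge lam
  obtain ⟨ι, r, hι, hr, hrι⟩ := hglue n
  exact kFrame_no_approxData n
    (approxData_of_model δ h0 hd hdense hext (hbap.mono hn) ι r hι hr hrι _
      (kFrame n).dist_le_bound _ one_pos)

end Vale.Agent.P090
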